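import Crest.Agent.X262.RR.Esz
import Crest.Agent.X262.KV.Srf

/-!
# Row 262, RR (helper28), part 3: Riemann-Roch and the duality inequality on surfaces

* `lift`         : sections lift from a component `C` if `H¹(D - C) = 0`;
* `exists_curve` : a free and ample class contains a smooth irreducible curve;
* `crv`          : the numbers of sections on the curve;
* `rrStmt : Surf.RRStmt`, `serStmt : Surf.SerStmt`.
-/

set_option autoImplicit false

open Filter Module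
open scoped KaehlerDifferential

noncomputable section

namespace Crest.Agent.X262.RR

open Crest.Agent.X277 Crest.Agent.X277.Lef Crest.Agent.X277.AN.G1 Crest.Agent.X277.BD
open Crest.Agent.X277.BD.Br (At oP kP)
open Crest.Agent.X277.Res.Log (Bd)
open Crest.Agent.X262.FG Crest.Agent.X262.FG.Prm5 Crest.Agent.X262.KV Crest.Agent.X262.Surf

variable {F : Type} [Field F] [Algebra ℂ F] {P : PModel ℂ F} {n : ℕ} {a a' D : BD ℂ F}

theorem amp_nef (h : Amp P a) : Nef a := by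
  obtain ⟨m, hm⟩ := h.semi
  exact Nef.of_nsmul m.succ_pos (hm _ m.le_succ).nef

theorem lin_sub_pr (a : BD ℂ F) {g : F} (hg : g ≠ 0) : Lin (a - pr ℂ g) a :=
  ⟨g⁻¹, inv_ne_zero hg, by rw [pr_inv, sub_eq_add_neg]⟩

theorem lin_sub {c c' : BD ℂ F} (h : Lin a a') (h' : Lin c c') : Lin (a - c) (a' - c') := by
  simpa only [sub_eq_add_neg] using h.add h'.neg

theorem lin_rs {E : Type} [Field E] [Algebra ℂ E] (p : Pl ℂ F ℂ E) (h : Lin a a') :
    Lin (p.rs a) (p.rs a') := by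
  obtain ⟨u, -, rfl⟩ := h
  simpa only [add_zero] using (Pl.lin_rs_add a' _).trans (Lin.rfl.add (Pl.lin_rs_pr u))

open Classical in
/-- **lifting of sections** -/
theorem lift {B : Bd P (n + 1)} {b : Basis (Fin (n + 1)) F Ω[F⁄ℂ]} {e : B.ι} {E : Type} [Field E]
    [Algebra ℂ E] (Φ : Fc B b e E) {M : Mdl ℂ F} (hM : M.H = oP P) (hD : D ∈ Br.On P)
    (h0 : D.val (pl Φ.p).V = 1) (hG : Gl M (D - dvs B (Pi.single e 1))) :
    ((pl Φ.p).res D).Sec ≤ LinearMap.range (resL Φ.p h0) := by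
  intro s' hs'
  obtain ⟨i0, hi0⟩ := M.exists_in (pl Φ.p).V
  have hw := M.c.t_ne i0
  obtain ⟨H, hH⟩ : ∃ H, H = oP P - pr ℂ (M.t i0) := ⟨_, rfl⟩
  obtain ⟨τ, hτ⟩ : ∃ τ : _ → F, τ = fun i => M.t i / M.t i0 := ⟨_, rfl⟩
  have h1 : Amp P H := hH ▸ (amp_oP P).sub_pr _
  have h2 : ∀ (V : RZ ℂ F) (i), V.v (τ i) = V.v (M.t i) / M.H.val V * H.val V := fun V i => by
    rw [hH, hτ, val_sub, val_pr hw, map_div₀, hM, div_mul_div_cancel₀ (val_ne _ _)]
  have h3 : ∀ i, τ i ∈ H.Sec := fun i V => (h2 V i).trans_le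
    (mul_le_of_le_one_left' ((div_le_one₀ (val_pos _ _)).2 (M.t_mem i V)))
  have h4 : ∀ i, τ i ≠ 0 := fun i => hτ ▸ div_ne_zero (M.c.t_ne i) hw
  have h5 : τ i0 = 1 := hτ ▸ div_self hw
  have h6 : H.val (pl Φ.p).V = 1 := hH ▸ Pl.val_sub_gen (hM ▸ Mdl.in_singleton.1 hi0)
  have h7 : ∀ {c : BD ℂ F} {x : F} {I} {i} {m : ℕ}, i ∈ I → x ∈ M.L (c + m • H) I →
      x / τ i ^ m ∈ M.L c I := fun {c x I i m} hi hx V hV => by
    have h := hx V hV
    rw [val_add, val_nsmul] at h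
    rwa [map_div₀, map_pow, div_le_iff₀ (pow_pos (RZ.pos (h4 i)) m), h2, hV i hi,
      div_self (val_ne _ _), one_mul]
  have h8 : ∀ {c : BD ℂ F} (m : ℕ), c.val (pl Φ.p).V = 1 → (c + m • H).val (pl Φ.p).V = 1 :=
    fun m h => by rw [val_add, val_nsmul, h, h6, one_pow, one_mul]
  obtain ⟨N, hN⟩ := h1.exists_amp (sub_mem hD (add_mem (Br.kP_mem b) (dvs_mem B (Pi.single e 1))))
  have hA := hN N le_rfl
  have key : ∀ i, ∃ σ ∈ (D + N • H).Sec, Φ.p.v σ ≤ 1 ∧ Φ.p.r σ = s' * Φ.p.r (τ i) ^ N := fun i =>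
    kvl_nef Φ.p Φ.v_eq Φ.od_K (q := 1) (φ := 0) (add_mem hD (nsmul_mem h1.1 N)) (amp_nef hA) hA.big
      one_pos (fun _ => by simp) rfl (by
        simp [Φ.od_K, (val_pl Φ.v_eq).1 h6, (val_pl Φ.v_eq).1 h0])
      (le_of_eq (by rw [one_smul, one_smul]; abel)) (by
        rw [pow_one, one_smul, dvs_zero, add_zero, add_left_comm, add_sub_cancel, add_comm,
          Pl.res_add h0 (by rw [val_nsmul, h6, one_pow]), Pl.res_nsmul h6, ← pl_r]
        exact mul_mem_Sec hs' (pow_mem_Sec (Pl.r_mem_Sec h6 (h3 i)) N))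
  choose σ k1 k2 k3 using key
  have h9 : ∀ i, Φ.p.v (τ i) ≤ 1 := fun i => Pl.mem_of_sec h6 (h3 i)
  have h10 : ∀ i, Φ.p.v (τ i ^ N) ≤ 1 := fun i => by
    rw [map_pow]
    exact pow_le_one' (h9 i) N
  obtain ⟨g, hg⟩ := hG (fun i => σ i / τ i ^ N) fun i j => by
    have h11 := mem_Sec_sub_single (B := B) (e := e)
      (add_mem (add_mem hD (nsmul_mem h1.1 N)) (nsmul_mem h1.1 N))
      (sub_mem (mul_mem_Sec (k1 j) (pow_mem_Sec (h3 i) N))
        (mul_mem_Sec (k1 i) (pow_mem_Sec (h3 j) N))) (by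
        rw [vl_eq_one_iff.2 ((val_pl Φ.v_eq).1 (h8 N (h8 N h0))), ← Φ.v_eq,
          ← Φ.p.r_eq_r (Φ.p.v_mul_le (k2 j) (h10 i)) (Φ.p.v_mul_le (k2 i) (h10 j)),
          Φ.p.r_mul (k2 j) (h10 i), Φ.p.r_mul (k2 i) (h10 j), k3, k3, Φ.p.r_pow (h9 i),
          Φ.p.r_pow (h9 j), mul_right_comm])
    rw [add_sub_right_comm, add_sub_right_comm] at h11
    have h12 := h7 (I := {i, j}) (i := j) (by simp) (h7 (i := i) (by simp) (Mdl.Sec_le_L _ _ h11))
    have h13 := pow_ne_zero N (h4 i)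
    have h14 := pow_ne_zero N (h4 j)
    convert h12 using 1
    field_simp
  have h11 : D - dvs B (Pi.single e 1) ≤ D :=
    sub_le_self _ (dvs_nonneg fun e' => by by_cases h : e' = e <;> simp [h])
  have h12 : g ∈ D.Sec := fun V => by
    obtain ⟨i, hi⟩ := M.exists_in V
    rw [← sub_sub_cancel (σ i / τ i ^ N) g]
    exact (V.v.map_sub _ _).trans (max_le (h7 (Finset.mem_singleton_self i)
      (Mdl.Sec_le_L _ _ (k1 i)) V hi) ((hg i V hi).trans (h11 V)))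
  refine ⟨⟨g, h12⟩, ?_⟩
  have h13 := (hg i0 _ hi0).trans_lt (((h11 _).trans_eq h0).lt_of_ne fun h => by
    simpa [(val_pl Φ.v_eq).1 h0] using (val_pl Φ.v_eq).1 h)
  have h14 := k3 i0
  simp only [h5, one_pow, div_one, Φ.p.r_one, mul_one] at h13 h14
  rw [← h14]
  refine ((Φ.p.r_eq_r (k2 i0) (Pl.mem_of_sec h0 h12)).2 ?_).symm
  simpa using (v_rz_lt_iff Φ.p.v Φ.p.triv (y := 1)).1 (h13.trans_eq (map_one _).symm)

variable [Algebra.EssFiniteType ℂ F]

open Classical in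
theorem pos_single {B : Bd P 2} (e : B.ι) (b : B2 F) (h : Amp P a) :
    0 < bnum [dvs B (Pi.single e 1), a] := by
  have h0 : 0 ≤ dvs B (Pi.single e 1) := dvs_nonneg fun e' => by by_cases h : e' = e <;> simp [h]
  obtain ⟨-, q, -, h1⟩ := h
  have h2 := (eff_of_nonneg h0).bnum_nonneg (l := [q • a - oP P]) (by simpa using h1.nef)
  have h3 := ((eff_of_nonneg h0).bnum_nonneg (l := [oP P])
    (by simpa using Br.free_oP.nef)).lt_of_ne' fun h4 => by
      simpa using congrArg (od B e) (eq_zero_of_bnum (dim_of_basis b) (dvs_mem B _) h0 h4)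
  rw [bnum_sub2, bnum_nsmul2] at h2
  exact pos_of_mul_pos_right (h3.trans_le (sub_nonneg.1 h2)) q.cast_nonneg

open Classical in
/-- **Bertini**: a smooth irreducible member -/
theorem exists_curve (b : B2 F) (h : Amp P a) (hf : Free a) :
    ∃ (B : Bd P 2) (e : B.ι), Lin a (dvs B (Pi.single e 1)) := by
  obtain ⟨s, C, hs, h1, h2⟩ := exists_smooth b h.1 hf
  have h3 : Lin a (dvs C 1) := ⟨s, hs, by rw [← h1, sub_add_cancel]⟩
  have h4 : ∀ e, 0 < bnum [dvs C (Pi.single e 1), dvs C (Pi.single e 1)] := fun e => by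
    have h5 := pos_single e b h
    rwa [bnum_swap, h3.bnum_eq, bnum_swap, ← add_sub_cancel (Pi.single e 1 : C.ι → ℤ) 1,
      dvs_add, bnum_add2,
      bnum_disj e (c := 1 - Pi.single e 1) (fun x hx e' hx' => by simp [h2 x e' e hx' hx]) (by simp),
      add_zero] at h5
  rcases isEmpty_or_nonempty C.ι with h5 | ⟨⟨e⟩⟩
  · have h6 := bnum_pos (l := [a, a]) (dim_of_basis b).symm (by simpa using ⟨amp_nef h, h.big⟩)
    rw [show (1 : C.ι → ℤ) = 0 from funext h5.elim, dvs_zero] at h3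
    exact absurd ((h3.bnum_eq _).trans (bnum_zero _)) h6.ne'
  refine ⟨C, e, (show (1 : C.ι → ℤ) = Pi.single e 1 from funext fun e' => ?_) ▸ h3⟩
  by_contra h5
  have h6 := hi (Λ := []) (by simp) (h4 e) (dvs C (Pi.single e' 1))
  rw [bnum_disj e (c := Pi.single e' 1) (fun x hx e'' hx' => Pi.single_eq_of_ne (by
    rintro rfl
    exact h5 (by simp [h2 x _ e hx' hx])) _) (by simp)] at h6
  exact (mul_pos (h4 e) (h4 e')).not_ge (by simpa using h6)

open Classical in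
/-- the numbers of sections on a smooth curve -/
theorem crv {B : Bd P 2} (e : B.ι) (b : B2 F) {Z : BD ℂ F} (hZ : Z = dvs B (Pi.single e 1)) :
    ∃ r : BD ℂ F → ℤ, ∀ D ∈ Br.On P, h0 D ≤ h0 (D - Z) + r D ∧
      2 * r D - 2 * r (kP P b + Z - D) = 2 * bnum [Z, D] - bnum [Z, kP P b + Z] ∧
      (bnum [Z, D] < 0 → r D = 0) ∧
      ∀ M : Mdl ℂ F, M.H = oP P → Gl M (D - Z) → h0 (D - Z) + r D ≤ h0 D := by
  subst hZ
  obtain ⟨b', E, _, _, ⟨Φ⟩⟩ := facStmt F 1 P B e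
  have := essFiniteType Φ.P'
  have hd := dim_of_basis Φ.b'
  refine ⟨fun D => (finrank ℂ ((pl Φ.p).rs D).Sec : ℕ), fun D hD => ?_⟩
  have h1 := lin_sub_pr D (D.gen_ne (pl Φ.p).V)
  have h2 := Pl.val_sub_gen (p := pl Φ.p) (v_gen D _)
  have h3 := h1.mem_On hD
  have h4 := finrank_res Φ.v_eq h3 h2
  have h5 := lin_sub h1 (Lin.rfl (a := dvs B (Pi.single e 1)))
  rw [h1.finrank, h5.finrank] at h4
  have h6 : Lin ((pl Φ.p).rs (kP P b + dvs B (Pi.single e 1))) (kP Φ.P' Φ.b') :=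
    (lin_rs _ ((Br.lin_kP b b').add Lin.rfl)).trans
      (Φ.res_K ▸ Pl.lin_rs_res ((val_pl Φ.v_eq).2 (by simp [Φ.od_K])))
  have h7 : Lin ((pl Φ.p).rs (kP P b + dvs B (Pi.single e 1) - D))
      (kP Φ.P' Φ.b' - (pl Φ.p).rs D) := by
    have h := lin_sub ((Pl.lin_rs_add (p := pl Φ.p) (kP P b + dvs B (Pi.single e 1) - D) D).symm.trans
      (by rwa [sub_add_cancel])) (Lin.rfl (a := (pl Φ.p).rs D))
    rwa [add_sub_cancel_right] at h
  have h8 : bnum [dvs B (Pi.single e 1), D] = bnum [(pl Φ.p).rs D] :=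
    bnum_single Φ.v_eq (by simpa using hD)
  have h9 : bnum [dvs B (Pi.single e 1), kP P b + dvs B (Pi.single e 1)] = bnum [kP Φ.P' Φ.b'] :=
    (bnum_single Φ.v_eq (by simpa using add_mem (Br.kP_mem b) (dvs_mem B _))).trans (h6.bnum_eq [])
  beta_reduce
  refine ⟨?_, ?_, fun h => ?_, fun M hM hG => ?_⟩
  · have h := Submodule.finrank_mono (range_resL_le h2)
    unfold h0 Pl.rs
    omega
  · have h := Loc.rr hd (der1_ne Φ.P' Φ.b') ((pl Φ.p).rs D)
    rw [h7.finrank, h8, h9, kP_eq_kC, Loc.deg_kC hd (der1_ne Φ.P' Φ.b')]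
    omega
  · exact Nat.cast_eq_zero.2 (Loc.finrank_of_neg hd (h8 ▸ h))
  · have h := Submodule.finrank_mono (lift Φ hM h3 h2 (hG.lin h5))
    unfold h0 Pl.rs
    omega

omit [Algebra.EssFiniteType ℂ F] in
theorem h0_lin (h : Lin a a') : h0 a = h0 a' := congrArg Nat.cast h.finrank

theorem rr_lin (b : B2 F) (c : ℤ) (h : Lin a a') : rr P b c a = rr P b c a' := by
  rw [rr, rr, h.bnum_eq, bnum_swap, (lin_sub h Lin.rfl).bnum_eq, bnum_swap]

theorem rr_add (b : B2 F) (c : ℤ) (a Z : BD ℂ F) :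
    rr P b c (a + Z) = rr P b c a + 2 * bnum [Z, a + Z] - bnum [Z, kP P b + Z] := by
  simp only [rr, bnum_add, bnum_add2, bnum_sub2, bnum_swap a Z]
  ring

/-- one step of Riemann-Roch -/
theorem step (b : B2 F) (c : ℤ) (h : Amp P a) (hf : Free a) (hD : Amp P (D - kP P b)) :
    2 * h0 (D + a) - rr P b c (D + a) = 2 * h0 D - rr P b c D ∧ Even (bnum [a, a - kP P b]) := by
  classical
  obtain ⟨B, e, h1⟩ := exists_curve b h hf
  obtain ⟨r, hr⟩ := crv e b rfl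
  have h2 : D ∈ Br.On P := by simpa using add_mem hD.1 (Br.kP_mem b)
  obtain ⟨h3, h4, -⟩ := hr _ (add_mem h2 (dvs_mem B (Pi.single e 1)))
  have h5 := pos_single e b hD
  have h6 := (hr _ (neg_mem hD.1)).2.2.1 (by rw [bnum_swap, bnum_neg, bnum_swap]; omega)
  have h7 := h0_step (D := D + dvs B (Pi.single e 1)) e b (add_mem h2 (dvs_mem B _)) hD.1
    (amp_nef hD) hD.big (le_of_eq (by abel)) (congrArg _ (by abel))
  rw [h0_lin (Lin.rfl.add h1), rr_lin b c (Lin.rfl.add h1), rr_add, h1.bnum_eq, bnum_swap _ (a - _),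
    (lin_sub h1 Lin.rfl).bnum_eq, bnum_swap (_ - _)]
  generalize dvs B (Pi.single e 1) = Z at h3 h4 h7
  rw [add_sub_add_right_eq_sub, ← neg_sub D, h6] at h4
  rw [add_sub_cancel_right] at h3 h7
  simp only [bnum_add2, bnum_sub2, bnum_nsmul2] at h4 h7 ⊢
  push_cast at h7
  exact ⟨by omega, Int.even_iff.2 (by omega)⟩

/-- **Riemann-Roch** -/
theorem rrStmt : RRStmt := by
  intro F _ _ _ P b
  obtain ⟨m0, h1⟩ := (amp_oP P).exists_amp (neg_mem (Br.kP_mem b))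
  simp only [← sub_eq_add_neg] at h1
  obtain ⟨d, hd⟩ := (step b 0 ((amp_oP P).nsmul m0.succ_pos) (Br.free_oP.nsmul _) (h1 m0 le_rfl)).2
  refine ⟨h0 ((m0 + 1) • oP P) - d, fun a ha => ?_⟩
  have h2 : ∀ m, m0 + 1 ≤ m → 2 * h0 (m • oP P) - rr P b (h0 ((m0 + 1) • oP P) - d) (m • oP P) = 0 := by
    intro m hm
    induction hm with
    | refl => rw [rr, hd]; ring
    | step hm ih =>
      rw [succ_nsmul, (step b _ (amp_oP P) Br.free_oP (h1 _ (m0.le_succ.trans hm))).1, ih]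
  obtain ⟨m1, h3⟩ := (amp_oP P).exists_amp ha
  obtain ⟨m2, h4⟩ := (amp_oP P).exists_free ha
  refine eventually_atTop.2 ⟨m0 + 1 + max m1 m2, fun m hm => ?_⟩
  have h5 := (step b (h0 ((m0 + 1) • oP P) - d) (h3 _ (le_max_left m1 m2)) (h4 _ (le_max_right m1 m2))
    (h1 (m - max m1 m2) (by omega))).1
  rwa [h2 _ (by omega), ← add_assoc, ← add_nsmul, Nat.sub_add_cancel (by omega), sub_eq_zero,
    add_comm _ a] at h5

/-- **the duality inequality** -/
theorem serStmt : SerStmt := by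
  classical
  intro F _ _ _ P b c hc a ha
  obtain ⟨M, hM⟩ := va_oP P
  have hK := sub_mem (Br.kP_mem b) ha
  obtain ⟨m0, h1⟩ := esz hM (by rw [dim_of_basis b]; exact one_lt_two) hK
  obtain ⟨m, h2, hm⟩ := ((hc a ha).and (eventually_ge_atTop (m0 + 1))).exists
  obtain ⟨B, e, h3⟩ := exists_curve b ((amp_oP P).nsmul (m := m) (by omega)) (Br.free_oP.nsmul m)
  obtain ⟨r, hr⟩ := crv e b rfl
  obtain ⟨h4, h5, -⟩ := hr _ (add_mem ha (dvs_mem B (Pi.single e 1)))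
  have h6 := (hr _ hK).2.2.2 M hM ((h1 m (by omega)).lin (lin_sub Lin.rfl h3.symm))
  have h7 : 0 ≤ h0 (kP P b - a - dvs B (Pi.single e 1)) := Nat.cast_nonneg _
  rw [h0_lin (Lin.rfl.add h3), rr_lin b c (Lin.rfl.add h3), rr_add] at h2
  rw [add_sub_add_right_eq_sub] at h5
  rw [add_sub_cancel_right] at h4
  omega

end Crest.Agent.X262.RR
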