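import Crest.Agent.X262.RR.Main
import Crest.Agent.X262.KV.Bir

/-!
# Row 262, RR (helper28), part 4: `ChiBirStmt` and the Euler characteristic as a function

* `chiBirStmt : Surf.ChiBirStmt`;
* `even_rr`, `exists_chi` : `a · (a - K)` is even, the function `χ`.
-/

set_option autoImplicit false

open Filter Module

noncomputable section

namespace Crest.Agent.X262.RR

open Crest.Agent.X277 Crest.Agent.X277.Lef Crest.Agent.X277.BD
open Crest.Agent.X277.BD.Br (oP kP)
open Crest.Agent.X262.Surf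

theorem chiBirStmt : ChiBirStmt := KV.chiBir_of rrStmt serStmt

variable {F : Type} [Field F] [Algebra ℂ F] [Algebra.EssFiniteType ℂ F] {P : PModel ℂ F}
  {a : BD ℂ F}

theorem even_rr (b : B2 F) (ha : a ∈ Br.On P) : Even (bnum [a, a - kP P b]) := by
  obtain ⟨c, hc⟩ := rrStmt F P b
  obtain ⟨m, h1, h2⟩ := ((hc a ha).and (hc 0 (zero_mem _))).exists
  rw [rr_add, rr] at h1 h2
  simp only [bnum_add2, bnum_zero, zero_add] at h1 h2
  exact Int.even_iff.2 (by omega)

/-- the Euler characteristic -/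
theorem exists_chi (P : PModel ℂ F) (b : B2 F) : ∃ chi : BD ℂ F → ℤ, Chi P b (chi 0) ∧
    ∀ a ∈ Br.On P, 2 * chi a = 2 * chi 0 + bnum [a, a] - bnum [a, kP P b] ∧
      chi a ≤ finrank ℂ a.Sec + finrank ℂ (kP P b - a).Sec ∧
      ∃ m0 : ℕ, ∀ m, m0 ≤ m → (finrank ℂ (a + m • oP P).Sec : ℤ) = chi (a + m • oP P) := by
  obtain ⟨c, hc⟩ := rrStmt F P b
  have h1 : ∀ a ∈ Br.On P, 2 * (rr P b c a / 2) = rr P b c a := fun a ha => by
    have h := Int.even_iff.1 (even_rr b ha)
    unfold rr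
    omega
  have h2 : rr P b c 0 / 2 = c := by simp [rr, bnum_zero]
  refine ⟨fun a => rr P b c a / 2, by simpa only [h2] using hc, fun a ha => ?_⟩
  beta_reduce
  refine ⟨?_, ?_, ?_⟩
  · rw [h1 a ha, h2, rr, bnum_sub2, add_sub_assoc]
  · have h3 := serStmt F P b c hc a ha
    unfold h0 at h3
    omega
  · refine (eventually_atTop.1 (hc a ha)).imp fun m0 h m hm => ?_
    have h3 := h m hm
    unfold h0 at h3
    omega

end Crest.Agent.X262.RR
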