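import Crest.Agent.X277.Pst.Rk

/-!
# Row 262, RR (helper28), part 1: traces and derivations at a valuation

* `v_trace_lt`, `v_lt_of_trace` : the radical is the kernel of the trace form (characteristic `0`);
* `v_der_le`, `v_der_le_self`   : derivations which preserve a discrete valuation ring;
* `der_lt`, `der_le`            : logarithmic derivations extend to a finite extension.
-/

set_option autoImplicit false
set_option linter.unusedSectionVars false

noncomputable section

namespace Crest.Agent.X262.RR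

open Crest.Agent.X277 Crest.Agent.X277.BD Crest.Agent.X277.Pst Polynomial Finset WithZero

theorem psum_zero {κ ι : Type*} [Field κ] [CharZero κ] [Fintype ι] {ρ : ι → κ}
    (h : ∀ m : ℕ, ∑ i, ρ i ^ (m + 1) = 0) (j : ι) : ρ j = 0 := by
  classical
  by_contra hj
  have h1 : ∀ q : κ[X], ∑ i, ρ i * q.eval (ρ i) = 0 := fun q => by
    induction q using Polynomial.induction_on' with
    | add p q hp hq => simp only [eval_add, mul_add, sum_add_distrib, hp, hq, add_zero]
    | monomial m a =>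
      have h2 : ∀ i, ρ i * eval (ρ i) (monomial m a) = a * ρ i ^ (m + 1) := fun i => by
        rw [eval_monomial]; ring
      simp only [h2, ← mul_sum, h m, mul_zero]
  have h2 := h1 (∏ l ∈ (univ.image ρ).erase (ρ j), (X - C l))
  rw [← sum_filter_add_sum_filter_not univ fun i => ρ i = ρ j, sum_eq_zero
    (s := univ.filter fun i => ¬ρ i = ρ j) (fun i hi => ?_), add_zero, sum_congr rfl fun i hi => by
      rw [(mem_filter.1 hi).2], sum_const, nsmul_eq_mul] at h2
  · refine mul_ne_zero (Nat.cast_ne_zero.2 (card_ne_zero.2 ⟨j, by simp⟩)) (mul_ne_zero hj ?_) h2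
    rw [eval_prod]
    exact prod_ne_zero_iff.2 fun l hl => by simpa [sub_eq_zero] using (mem_erase.1 hl).1.symm
  · rw [eval_prod, prod_eq_zero (i := ρ i) (mem_erase.2 ⟨(mem_filter.1 hi).2, by simp⟩) (by simp),
      mul_zero]

variable {k E F : Type*} [Field k] [Field E] [Field F] [Algebra E F]

theorem exists_prim {Γ : Type*} [LinearOrderedCommGroupWithZero Γ] (v : Valuation E Γ) {w : F}
    (hw : IsAlgebraic E w) :
    ∃ p : E[X], (∀ i, v (p.coeff i) ≤ 1) ∧ (∃ i, p.coeff i = 1) ∧ aeval w p = 0 := by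
  obtain ⟨q, h0, hq⟩ := hw
  obtain ⟨i, hi, h1⟩ := q.support.exists_max_image (fun i => v (q.coeff i)) (support_nonempty.2 h0)
  have h2 := mem_support_iff.1 hi
  refine ⟨C (q.coeff i)⁻¹ * q, fun j => ?_, ⟨i, by rw [coeff_C_mul, inv_mul_cancel₀ h2]⟩,
    by rw [map_mul, hq, mul_zero]⟩
  rw [coeff_C_mul, map_mul, map_inv₀, inv_mul_le_one₀ (zero_lt_iff.2 (by simpa using h2))]
  by_cases hj : j ∈ q.support
  · exact h1 j hj
  · simp [notMem_support_iff.1 hj]

variable [Algebra k E] [Algebra k F] [IsScalarTower k E F]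

/-! ### traces -/

section Tr

theorem charZero_res [CharZero k] (V : RZ k F) : CharZero (IsLocalRing.ResidueField V.1) :=
  letI := algV V
  (RingHom.charZero_iff (algebraMap k (IsLocalRing.ResidueField V.1)).injective).1 inferInstance

theorem exists_unit_eval [Infinite k] (W : RZ k E) {p : E[X]} (h1 : ∀ i, W.v (p.coeff i) ≤ 1)
    (h2 : ∃ i, p.coeff i = 1) : ∃ c : k, W.v (p.eval (algebraMap k E c)) = 1 := by
  letI := algV W
  obtain ⟨q, rfl⟩ : p ∈ lifts (algebraMap W.1 E) :=
    (lifts_iff_coeff_lifts p).2 fun m => ⟨⟨_, RZ.le_one_iff.1 (h1 m)⟩, rfl⟩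
  obtain ⟨i, hi⟩ := h2
  have h3 : q.coeff i = 1 := Subtype.ext (by simpa using hi)
  by_contra hc
  push Not at hc
  have h4 : q.map (IsLocalRing.residue W.1) = 0 := by
    refine eq_zero_of_infinite_isRoot _ ((Set.infinite_range_of_injective
      (algebraMap k (IsLocalRing.ResidueField W.1)).injective).mono ?_)
    rintro _ ⟨c, rfl⟩
    change eval (IsLocalRing.residue W.1 (algebraMap k W.1 c)) _ = 0
    rw [eval_map_apply, ← res_coe]
    by_contra h5
    refine hc c ?_
    rw [← res_ne_zero.1 h5, coe_mapRingHom, show algebraMap k E c = algebraMap W.1 E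
      (algebraMap k W.1 c) from rfl, eval_map_apply]
    rfl
  simpa [h3] using congrArg (coeff · i) h4

/-- the valuation ring induced through an embedding -/
def via {Ω : Type*} [Field Ω] [Algebra k Ω] [Algebra E Ω] [IsScalarTower k E Ω] (U : RZ k Ω)
    (σ : F →ₐ[E] Ω) : RZ k F := cm (σ.restrictScalars k : F →+* Ω) (alg_ov _) U

theorem rsK_via {Ω : Type*} [Field Ω] [Algebra k Ω] [Algebra E Ω] [IsScalarTower k E Ω] (U : RZ k Ω)
    (σ : F →ₐ[E] Ω) : rsK E (via U σ) = rsK E U :=
  Subtype.ext (ValuationSubring.ext _ _ fun x => by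
    rw [mem_rsK, mem_rsK, ← σ.commutes]; rfl)

theorem rsK_lt {V : RZ k F} {x : E} : (rsK E V).v x < 1 ↔ V.v (algebraMap E F x) < 1 := by
  rw [← map_one (rsK E V).v, v_cm_lt_iff, map_one, map_one]; rfl

theorem rsK_eq {V : RZ k F} {x : E} : (rsK E V).v x = 1 ↔ V.v (algebraMap E F x) = 1 := by
  rw [← map_one (rsK E V).v, v_cm_eq_iff, map_one, map_one]; rfl

theorem rsK_le {V : RZ k F} {x y : E} :
    (rsK E V).v x ≤ (rsK E V).v y ↔ V.v (algebraMap E F x) ≤ V.v (algebraMap E F y) := v_cm_le_iff _ _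

variable [FiniteDimensional E F] [CharZero k]

theorem v_trace_lt (W : RZ k E) {y : F} (h : ∀ V : RZ k F, rsK E V = W → V.v y < 1) :
    W.v (Algebra.trace E F y) < 1 := by
  haveI : CharZero E := charZero_of_injective_algebraMap (algebraMap k E).injective
  obtain ⟨U, rfl⟩ := cm_surjective (IsScalarTower.toAlgHom k E (AlgebraicClosure F)) W
  refine rsK_lt.2 ?_
  rw [trace_eq_sum_embeddings]
  refine U.v.map_sum_lt one_ne_zero fun σ _ => ?_
  have h1 := h _ (rsK_via U σ)
  rwa [← map_one (via U σ).v, via, v_cm_lt_iff, map_one, map_one] at h1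

theorem v_lt_of_trace (V : RZ k F) {w : F}
    (h : ∀ a : F, (∀ V' : RZ k F, (rsK E V).1 ≤ (rsK E V').1 → a ∈ V'.1) →
      (rsK E V).v (Algebra.trace E F (w * a)) < 1) : V.v w < 1 := by
  haveI : CharZero E := charZero_of_injective_algebraMap (algebraMap k E).injective
  by_contra hw
  rw [not_lt] at hw
  obtain ⟨p, h1, h2, h3⟩ := exists_prim (rsK E V).v (Algebra.IsAlgebraic.isAlgebraic (R := E) w)
  obtain ⟨c, hc⟩ := exists_unit_eval _ h1 h2
  have h4 : ∀ V' : RZ k F, (rsK E V).1 ≤ (rsK E V').1 → 1 ≤ V'.v (w - algebraMap k F c) := by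
    intro V' hV'
    by_contra h5
    rw [not_le] at h5
    have h6 := RZ.le_one_iff.1 h5.le
    have h7 : ∀ i, (p.map (algebraMap E F)).coeff i ∈ V'.1 := fun i => by
      rw [coeff_map]
      exact hV' (RZ.le_one_iff.1 (h1 i))
    have h8 : res V'.1 w = res V'.1 (algebraMap k F c) := by
      conv_lhs => rw [← sub_add_cancel w (algebraMap k F c)]
      rw [res_add h6 (V'.2 c), res_eq_zero h5, zero_add]
    have h9 := res_eval h7 (show w ∈ V'.1 by simpa using add_mem h6 (V'.2 c))
    rw [h8, ← res_eval h7 (V'.2 c), eval_map_algebraMap, h3, res_eq_zero (by simp),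
      IsScalarTower.algebraMap_apply k E F, eval_map_apply] at h9
    refine res_ne_zero.2 (rsK_eq.1 ?_) h9.symm
    rw [← map_one (rsK E V').v]
    exact RZ.eq_of_le hV' (hc.trans (map_one _).symm)
  have h0 : w - algebraMap k F c ≠ 0 := RZ.ne_zero_iff.1 (zero_lt_one.trans_le (h4 V le_rfl)).ne'
  set a := (w - algebraMap k F c)⁻¹ with ha
  have h5 : ∀ V' : RZ k F, (rsK E V).1 ≤ (rsK E V').1 → a ∈ V'.1 := fun V' hV' =>
    RZ.le_one_iff.1 (by rw [ha, map_inv₀]; exact inv_le_one_of_one_le₀ (h4 V' hV'))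
  have h6 : ∀ V' : RZ k F, (rsK E V).1 ≤ (rsK E V').1 → w * a ∈ V'.1 := fun V' hV' => by
    rw [show w * a = 1 + algebraMap k F c * a by rw [ha]; field_simp; ring]
    exact add_mem (one_mem _) (mul_mem (V'.2 c) (h5 V' hV'))
  have h7 : V.v (w * a) = 1 := by
    refine le_antisymm (RZ.le_one_iff.2 (h6 V le_rfl)) ?_
    rw [ha, ← div_eq_mul_inv, map_div₀, one_le_div₀ (RZ.pos h0)]
    exact (V.v.map_sub _ _).trans (max_le le_rfl ((V.v_alg_le c).trans hw))
  obtain ⟨U, hU⟩ := cm_surjective (IsScalarTower.toAlgHom k F (AlgebraicClosure F)) V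
  have hE : rsK E U = rsK E V := by
    rw [← hU]
    exact (rsK_via U (IsScalarTower.toAlgHom E F (AlgebraicClosure F))).symm
  haveI := charZero_res U
  have h8 : ∀ σ : F →ₐ[E] AlgebraicClosure F, σ (w * a) ∈ U.1 := fun σ =>
    h6 (via U σ) (by rw [rsK_via, hE])
  have h9 := psum_zero (ρ := fun σ : F →ₐ[E] AlgebraicClosure F =>
    IsLocalRing.residue U.1 ⟨_, h8 σ⟩) (fun m => ?_) (IsScalarTower.toAlgHom E F _)
  · rw [← res_eq (h8 _)] at h9
    refine res_ne_zero.2 ?_ h9
    rw [← hU, ← map_one (RZ.v _), v_cm_eq_iff, map_one, map_one] at h7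
    exact h7
  · have h10 := h (a * (w * a) ^ m) fun V' hV' => mul_mem (h5 V' hV') (pow_mem (h6 V' hV') m)
    rw [← hE, rsK_lt, trace_eq_sum_embeddings, ← mul_assoc, ← pow_succ'] at h10
    simp only [← map_pow, ← map_sum]
    rw [← res_coe]
    refine res_eq_zero ?_
    push_cast
    simpa only [map_pow] using h10

end Tr

/-! ### derivations -/

section Der

variable {v : Valuation F ℤᵐ⁰} {π f : F} {δ : Derivation k F F}

theorem v_aeval_le {p : E[X]} (hp : ∀ i, v (algebraMap E F (p.coeff i)) ≤ 1) (hf : v f ≤ 1) :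
    v (aeval f p) ≤ 1 := by
  rw [aeval_eq_sum_range]
  refine v.map_sum_le fun i _ => ?_
  rw [Algebra.smul_def, map_mul, map_pow]
  exact mul_le_one' (hp i) (pow_le_one' hf i)

theorem v_aeval_lt {p : E[X]} (hp : ∀ i, v (algebraMap E F (p.coeff i)) < 1) (hf : v f ≤ 1) :
    v (aeval f p) < 1 := by
  rw [aeval_eq_sum_range]
  refine v.map_sum_lt one_ne_zero fun i _ => ?_
  rw [Algebra.smul_def, map_mul, map_pow]
  exact (mul_le_of_le_one_right' (pow_le_one' hf i)).trans_lt (hp i)

theorem logd (δ : Derivation k F F) (hπ : v π = exp (-1)) (hf : f ≠ 0) :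
    ∃ ε, v ε = 1 ∧ δ f / f = δ ε / ε + ((-log (v f) : ℤ) : F) * (δ π / π) := by
  have h0 : π ≠ 0 := fun h => by simp [h, exp_ne_zero.symm] at hπ
  have h1 : v f ≠ 0 := by simpa using hf
  set e := -log (v f) with he
  have h2 : π ^ e ≠ 0 := zpow_ne_zero _ h0
  refine ⟨f / π ^ e, ?_, ?_⟩
  · rw [map_div₀, map_zpow₀, hπ, ← exp_zsmul, he, div_eq_one_iff_eq exp_ne_zero]
    simpa using (exp_log h1).symm
  · rw [δ.leibniz_div, δ.leibniz_zpow, zpow_sub_one₀ h0]
    simp only [smul_eq_mul, zsmul_eq_mul]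
    field_simp
    ring

variable (hv : ∀ c : k, v (algebraMap k F c) ≤ 1) (hπ : v π = exp (-1))
include hv

theorem v_alg {c : k} (hc : c ≠ 0) : v (algebraMap k F c) = 1 := by
  refine le_antisymm (hv c) ?_
  have h := hv c⁻¹
  rwa [map_inv₀, map_inv₀, inv_le_one₀ (zero_lt_iff.2 (by simpa using hc))] at h

theorem v_int (e : ℤ) : v (e : F) ≤ 1 := by simpa using hv e

include hπ

theorem v_der_le (hδ : ∀ f, v f ≤ 1 → v (δ f) ≤ 1) (f : F) : v (δ f) ≤ v f * exp 1 := by
  rcases eq_or_ne f 0 with rfl | hf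
  · simp
  obtain ⟨ε, h1, h2⟩ := logd δ hπ hf
  rw [mul_comm, ← div_le_iff₀ (zero_lt_iff.2 (by simpa using hf)), ← map_div₀, h2]
  refine (v.map_add _ _).trans (max_le ?_ ?_)
  · rw [map_div₀, h1, div_one]
    exact (hδ ε h1.le).trans (by rw [← exp_zero, exp_le_exp]; norm_num)
  · rw [map_mul, map_div₀, hπ, exp_neg, div_inv_eq_mul]
    refine (mul_le_of_le_one_left' (v_int hv _)).trans (mul_le_of_le_one_left' (hδ π ?_))
    rw [hπ, ← exp_zero, exp_le_exp]; norm_num

variable [CharZero k] {ϖ : F} (h0 : ϖ ≠ 0) (hϖ : v ϖ < 1)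
include h0 hϖ

theorem v_der_le_self (hδ : ∀ f, v f ≤ 1 → v (δ f) ≤ 1) (h : v (δ ϖ) ≤ v ϖ) (f : F) :
    v (δ f) ≤ v f := by
  have key : ∀ ε, v ε = 1 → v (δ ε / ε) ≤ 1 := fun ε h1 => by
    rw [map_div₀, h1, div_one]
    exact hδ ε h1.le
  have h1 : v ϖ ≠ 0 := by simpa using h0
  have h2 : v (δ π / π) ≤ 1 := by
    obtain ⟨ε, h3, h4⟩ := logd δ hπ h0
    have h5 : v ((-log (v ϖ) : ℤ) : F) = 1 := by
      rw [← map_intCast (algebraMap k F)]
      refine v_alg hv (Int.cast_ne_zero.2 fun h6 => hϖ.ne ?_)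
      rw [← exp_log h1, neg_eq_zero.1 h6, exp_zero]
    rw [← one_mul (v _), ← h5, ← map_mul, ← sub_eq_iff_eq_add'.2 h4, h5]
    refine (v.map_sub _ _).trans (max_le ?_ (key ε h3))
    rwa [map_div₀, div_le_one₀ (zero_lt_iff.2 h1)]
  rcases eq_or_ne f 0 with rfl | hf
  · simp
  obtain ⟨ε, h3, h4⟩ := logd δ hπ hf
  rw [← div_le_one₀ (zero_lt_iff.2 (by simpa using hf)), ← map_div₀, h4]
  exact (v.map_add _ _).trans (max_le (key ε h3) (map_mul v _ _ ▸ mul_le_one' (v_int hv _) h2))

variable [Algebra.IsAlgebraic E F]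

/-- a derivation which vanishes on the residue field below vanishes on the residue field above -/
theorem der_lt (hδ : ∀ f, v f ≤ 1 → v (δ f) ≤ 1) (h : v (δ ϖ) ≤ v ϖ)
    (hE : ∀ c : E, v (algebraMap E F c) ≤ 1 → v (δ (algebraMap E F c)) < 1) (hf : v f ≤ 1) :
    v (δ f) < 1 := by
  have key : ∀ (d : ℕ) (p : E[X]), p.natDegree < d → (∀ i, v (algebraMap E F (p.coeff i)) ≤ 1) →
      (∃ i, v (algebraMap E F (p.coeff i)) = 1) → v (aeval f p) < 1 → v (δ f) < 1 := by
    intro d
    induction d with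
    | zero => exact fun _ h => absurd h (Nat.not_lt_zero _)
    | succ d ih =>
      rintro p hd h1 ⟨i, hi⟩ h2
      have h3 : ∀ i, v (algebraMap E F (p.derivative.coeff i)) =
          v (algebraMap E F (p.coeff (i + 1))) := fun i => by
        rw [coeff_derivative, map_mul, map_mul, ← Nat.cast_succ, map_natCast,
          ← map_natCast (algebraMap k F), v_alg hv (Nat.cast_ne_zero.2 i.succ_ne_zero), mul_one]
      have h4 : ∀ i, v (algebraMap E F (p.derivative.coeff i)) ≤ 1 := fun i => (h3 i).trans_le (h1 _)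
      rcases (v_aeval_le h4 hf).eq_or_lt with h5 | h5
      · have h6 : v (δ (aeval f p) - aeval f p.derivative * δ f) < 1 := by
          conv_lhs => rw [p.as_sum_support]
          simp only [map_sum, sum_mul, ← sum_sub_distrib]
          refine v.map_sum_lt one_ne_zero fun i _ => ?_
          rw [derivative_monomial, aeval_monomial, aeval_monomial, δ.leibniz, δ.leibniz_pow]
          simp only [smul_eq_mul, nsmul_eq_mul, map_mul, map_natCast]
          rw [show ∀ a b c d e g : F, a * (b * (c * d)) + e * g - a * b * c * d = e * g from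
            fun _ _ _ _ _ _ => by ring, map_mul, map_pow]
          exact (mul_le_of_le_one_left' (pow_le_one' hf i)).trans_lt (hE _ (h1 i))
        have h7 := v.map_sub_lt ((v_der_le_self hv hπ h0 hϖ hδ h _).trans_lt h2) h6
        rwa [sub_sub_cancel, map_mul, h5, one_mul] at h7
      · by_cases h6 : ∃ i, v (algebraMap E F (p.derivative.coeff i)) = 1
        · refine ih _ ?_ h4 h6 h5
          obtain ⟨j, hj⟩ := h6
          have h7 : p.derivative ≠ 0 := fun h8 => by simp [h8] at hj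
          exact (natDegree_derivative_lt fun h8 => h7 (by
            rw [eq_C_of_natDegree_eq_zero h8, derivative_C])).trans_le (Nat.lt_succ_iff.1 hd)
        · exfalso
          push Not at h6
          have h7 : ∀ i, v (algebraMap E F (p.divX.coeff i)) < 1 := fun i => by
            rw [coeff_divX, ← h3]
            exact (h4 i).lt_of_ne (h6 i)
          have h8 : v (f * aeval f p.divX) < 1 :=
            map_mul v _ _ ▸ (mul_le_of_le_one_left' hf).trans_lt (v_aeval_lt h7 hf)
          have h9 := v.map_sub_lt h2 h8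
          conv at h9 => enter [1, 2, 1]; rw [← X_mul_divX_add p, map_add, map_mul, aeval_X, aeval_C]
          rw [add_sub_cancel_left] at h9
          rcases i with _ | i
          · exact h9.ne hi
          · exact h6 i ((h3 i).trans hi)
  obtain ⟨p, h1, ⟨i, hi⟩, h3⟩ := exists_prim (v.comap (algebraMap E F))
    (Algebra.IsAlgebraic.isAlgebraic (R := E) f)
  exact key _ p (Nat.lt_succ_self _) h1 ⟨i, by simp [hi]⟩ (by simp [h3])

/-- logarithmic derivations preserve the valuation ring above -/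
theorem der_le {z : F} (hz : v z ≤ 1) (hδ : ∀ f, v f ≤ 1 → v (δ f) ≤ v (δ z)) (h : v (δ ϖ) ≤ v ϖ)
    (hE : ∀ c : E, v (algebraMap E F c) ≤ 1 → v (δ (algebraMap E F c)) ≤ 1) (hf : v f ≤ 1) :
    v (δ f) ≤ 1 := by
  refine (hδ f hf).trans (not_lt.1 fun h1 => ?_)
  have h2 := zero_lt_one.trans h1
  have h3 : ∀ g, v (((δ z)⁻¹ • δ) g) = v (δ g) / v (δ z) := fun g => by
    rw [Derivation.smul_apply, smul_eq_mul, map_mul, map_inv₀, div_eq_inv_mul]
  have h4 := der_lt (E := E) (δ := (δ z)⁻¹ • δ) hv hπ h0 hϖ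
    (fun g hg => by rw [h3, div_le_one₀ h2]; exact hδ g hg)
    (by rw [h3, div_le_iff₀ h2]; exact h.trans (le_mul_of_one_le_right' h1.le))
    (fun c hc => by rw [h3, div_lt_one₀ h2]; exact (hE c hc).trans_lt h1) hz
  rw [h3, div_self h2.ne'] at h4
  exact lt_irrefl _ h4

end Der

end Crest.Agent.X262.RR
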